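import Mathlib
import Vale.Agent.Lib.P162.Defs
import Vale.Agent.Lib.P162.RDefs
import Vale.Agent.Lib.P162.CVDefs
import Vale.Agent.Lib.P162.helper23.ProdTv
import Vale.Agent.Lib.P162.helper43.LumpTail
import Vale.Agent.Lib.P162.helper95.KmatBasic
import Vale.Agent.Lib.P162.helper71.QpowSupport

/-!
# P162 pool job CV4 (third copy, helper28): the Cauchy-Schwarz induction

The induction is first proved for abstract kernels (no Thorp shuffle objects in the goals), then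
instantiated.
-/

namespace Vale.Agent.Lib.P162.H28CV

open Finset BigOperators

section core

variable {α β : Type*} [Fintype α] [Fintype β] [DecidableEq α] [DecidableEq β]

theorem swap5 (F : α → α → β → α → α → ℝ) :
    ∑ a, ∑ b, ∑ c, ∑ d, ∑ e, F a b c d e = ∑ c, ∑ d, ∑ e, ∑ a, ∑ b, F a b c d e := by
  calc ∑ a, ∑ b, ∑ c, ∑ d, ∑ e, F a b c d e
      = ∑ a, ∑ c, ∑ b, ∑ d, ∑ e, F a b c d e :=
        Finset.sum_congr rfl (fun a _ => Finset.sum_comm)
    _ = ∑ c, ∑ a, ∑ b, ∑ d, ∑ e, F a b c d e := Finset.sum_comm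
    _ = ∑ c, ∑ a, ∑ d, ∑ b, ∑ e, F a b c d e :=
        Finset.sum_congr rfl (fun c _ => Finset.sum_congr rfl (fun a _ => Finset.sum_comm))
    _ = ∑ c, ∑ d, ∑ a, ∑ b, ∑ e, F a b c d e :=
        Finset.sum_congr rfl (fun c _ => Finset.sum_comm)
    _ = ∑ c, ∑ d, ∑ a, ∑ e, ∑ b, F a b c d e :=
        Finset.sum_congr rfl (fun c _ => Finset.sum_congr rfl (fun d _ =>
          Finset.sum_congr rfl (fun a _ => Finset.sum_comm)))
    _ = ∑ c, ∑ d, ∑ e, ∑ a, ∑ b, F a b c d e :=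
        Finset.sum_congr rfl (fun c _ => Finset.sum_congr rfl (fun d _ => Finset.sum_comm))

theorem weighted_cs {ι : Type*} (s : Finset ι) (r f g : ι → ℝ) (hf : ∀ i ∈ s, 0 ≤ f i)
    (hg : ∀ i ∈ s, 0 ≤ g i) (hr : ∀ i ∈ s, r i ^ 2 ≤ f i * g i) :
    (∑ i ∈ s, r i) ^ 2 ≤ (∑ i ∈ s, f i) * ∑ i ∈ s, g i := by
  have h1 : |∑ i ∈ s, r i| ≤ ∑ i ∈ s, Real.sqrt (f i) * Real.sqrt (g i) := by
    refine (Finset.abs_sum_le_sum_abs _ _).trans (Finset.sum_le_sum (fun i hi => ?_))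
    rw [← Real.sqrt_mul (hf i hi)]
    exact Real.abs_le_sqrt (hr i hi)
  have h2 : (∑ i ∈ s, Real.sqrt (f i) * Real.sqrt (g i)) ^ 2
      ≤ (∑ i ∈ s, Real.sqrt (f i) ^ 2) * ∑ i ∈ s, Real.sqrt (g i) ^ 2 :=
    Finset.sum_mul_sq_le_sq_mul_sq s _ _
  have h3 : ∑ i ∈ s, Real.sqrt (f i) ^ 2 = ∑ i ∈ s, f i :=
    Finset.sum_congr rfl (fun i hi => Real.sq_sqrt (hf i hi))
  have h4 : ∑ i ∈ s, Real.sqrt (g i) ^ 2 = ∑ i ∈ s, g i :=
    Finset.sum_congr rfl (fun i hi => Real.sq_sqrt (hg i hi))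
  calc (∑ i ∈ s, r i) ^ 2 = |∑ i ∈ s, r i| ^ 2 := (sq_abs _).symm
    _ ≤ (∑ i ∈ s, Real.sqrt (f i) * Real.sqrt (g i)) ^ 2 :=
        pow_le_pow_left₀ (abs_nonneg _) h1 2
    _ ≤ (∑ i ∈ s, f i) * ∑ i ∈ s, g i := by
        rw [← h3, ← h4]
        exact h2

/-- The double sum against a point mass. -/
theorem dsum_single (a b : α) (m : α → α → ℝ) :
    ∑ x, ∑ y, (if x = a then (1 : ℝ) else 0) * (if y = b then (1 : ℝ) else 0) * m x y
      = m a b := by
  rw [Finset.sum_eq_single a, Finset.sum_eq_single b]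
  · rw [if_pos rfl, if_pos rfl, one_mul, one_mul]
  · intro y _ hy
    rw [if_neg hy, mul_zero, zero_mul]
  · intro hb
    exact absurd (Finset.mem_univ b) hb
  · intro x _ hx
    refine Finset.sum_eq_zero (fun y _ => ?_)
    rw [if_neg hx, zero_mul, zero_mul]
  · intro ha
    exact absurd (Finset.mem_univ a) ha

theorem quad0 (p : α) (w v : β) (ξ : α → ℝ) :
    ∑ q, ∑ q', ξ q * ξ q' * (if q = p ∧ q' = p ∧ v = w then (1 : ℝ) else 0)
      = if v = w then ξ p * ξ p else 0 := by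
  rw [Finset.sum_eq_single p, Finset.sum_eq_single p]
  · by_cases hv : v = w
    · rw [if_pos ⟨rfl, rfl, hv⟩, if_pos hv, mul_one]
    · rw [if_neg (fun hc => hv hc.2.2), if_neg hv, mul_zero]
  · intro q' _ hq'
    rw [if_neg (fun hc => hq' hc.2.1), mul_zero]
  · intro hp
    exact absurd (Finset.mem_univ p) hp
  · intro q _ hq
    refine Finset.sum_eq_zero (fun q' _ => ?_)
    rw [if_neg (fun hc => hq hc.1), mul_zero]
  · intro hp
    exact absurd (Finset.mem_univ p) hp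

theorem lin0 (p : α) (w v : β) (ξ : α → ℝ) :
    ∑ q, ξ q * (if q = p ∧ v = w then (1 : ℝ) else 0) = if v = w then ξ p else 0 := by
  rw [Finset.sum_eq_single p]
  · by_cases hv : v = w
    · rw [if_pos ⟨rfl, hv⟩, if_pos hv, mul_one]
    · rw [if_neg (fun hc => hv hc.2), if_neg hv, mul_zero]
  · intro q _ hq
    rw [if_neg (fun hc => hq hc.1), mul_zero]
  · intro hp
    exact absurd (Finset.mem_univ p) hp

variable (A : α → β → α → β → ℝ) (D : β → β → ℝ) (M : ℕ → β → α → α → ℝ)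
  (N : ℕ → β → α → ℝ) (P : ℕ → β → ℝ)

theorem core_E1
    (hM : ∀ t v1 q1 q1', M (t + 1) v1 q1 q1'
      = ∑ v, ∑ q, ∑ q', M t v q q' * A q v q1 v1 * A q' v q1' v1 / D v v1)
    (t : ℕ) (v1 : β) (ξ : α → ℝ) :
    ∑ q1, ∑ q1', ξ q1 * ξ q1' * M (t + 1) v1 q1 q1'
      = ∑ v, (∑ q, ∑ q', (∑ q1, ξ q1 * A q v q1 v1) * (∑ q1, ξ q1 * A q' v q1 v1)
          * M t v q q') / D v v1 := by
  have hL : ∀ q1 q1', ξ q1 * ξ q1' * M (t + 1) v1 q1 q1'
      = ∑ v, ∑ q, ∑ q',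
          ξ q1 * ξ q1' * (M t v q q' * A q v q1 v1 * A q' v q1' v1 / D v v1) := by
    intro q1 q1'
    rw [hM, Finset.mul_sum]
    refine Finset.sum_congr rfl (fun v _ => ?_)
    rw [Finset.mul_sum]
    refine Finset.sum_congr rfl (fun q _ => ?_)
    rw [Finset.mul_sum]
  have hR : ∀ v, (∑ q, ∑ q', (∑ q1, ξ q1 * A q v q1 v1) * (∑ q1, ξ q1 * A q' v q1 v1)
          * M t v q q') / D v v1
      = ∑ q, ∑ q', ∑ q1, ∑ q1',
          ξ q1 * ξ q1' * (M t v q q' * A q v q1 v1 * A q' v q1' v1 / D v v1) := by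
    intro v
    rw [Finset.sum_div]
    refine Finset.sum_congr rfl (fun q _ => ?_)
    rw [Finset.sum_div]
    refine Finset.sum_congr rfl (fun q' _ => ?_)
    rw [Finset.sum_mul_sum, Finset.sum_mul, Finset.sum_div]
    refine Finset.sum_congr rfl (fun q1 _ => ?_)
    rw [Finset.sum_mul, Finset.sum_div]
    refine Finset.sum_congr rfl (fun q1' _ => ?_)
    ring
  calc ∑ q1, ∑ q1', ξ q1 * ξ q1' * M (t + 1) v1 q1 q1'
      = ∑ q1, ∑ q1', ∑ v, ∑ q, ∑ q',
          ξ q1 * ξ q1' * (M t v q q' * A q v q1 v1 * A q' v q1' v1 / D v v1) :=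
        Finset.sum_congr rfl (fun q1 _ => Finset.sum_congr rfl (fun q1' _ => hL q1 q1'))
    _ = ∑ v, ∑ q, ∑ q', ∑ q1, ∑ q1',
          ξ q1 * ξ q1' * (M t v q q' * A q v q1 v1 * A q' v q1' v1 / D v v1) :=
        swap5 (fun q1 q1' v q q' =>
          ξ q1 * ξ q1' * (M t v q q' * A q v q1 v1 * A q' v q1' v1 / D v v1))
    _ = _ := Finset.sum_congr rfl (fun v _ => (hR v).symm)

theorem core_E2 (hN : ∀ t v1 q1, N (t + 1) v1 q1 = ∑ v, ∑ q, N t v q * A q v q1 v1)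
    (t : ℕ) (v1 : β) (ξ : α → ℝ) :
    ∑ q1, ξ q1 * N (t + 1) v1 q1 = ∑ v, ∑ q, N t v q * ∑ q1, ξ q1 * A q v q1 v1 := by
  have hL : ∀ q1, ξ q1 * N (t + 1) v1 q1 = ∑ v, ∑ q, ξ q1 * (N t v q * A q v q1 v1) := by
    intro q1
    rw [hN, Finset.mul_sum]
    refine Finset.sum_congr rfl (fun v _ => ?_)
    rw [Finset.mul_sum]
  have hR : ∀ v q, N t v q * ∑ q1, ξ q1 * A q v q1 v1
      = ∑ q1, ξ q1 * (N t v q * A q v q1 v1) := by
    intro v q
    rw [Finset.mul_sum]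
    refine Finset.sum_congr rfl (fun q1 _ => ?_)
    ring
  calc ∑ q1, ξ q1 * N (t + 1) v1 q1
      = ∑ q1, ∑ v, ∑ q, ξ q1 * (N t v q * A q v q1 v1) :=
        Finset.sum_congr rfl (fun q1 _ => hL q1)
    _ = ∑ v, ∑ q1, ∑ q, ξ q1 * (N t v q * A q v q1 v1) := Finset.sum_comm
    _ = ∑ v, ∑ q, ∑ q1, ξ q1 * (N t v q * A q v q1 v1) :=
        Finset.sum_congr rfl (fun v _ => Finset.sum_comm)
    _ = _ := Finset.sum_congr rfl (fun v _ => Finset.sum_congr rfl (fun q _ => (hR v q).symm))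

theorem core_psd (p : α) (w : β) (hD : ∀ v v1, 0 ≤ D v v1)
    (hM0 : ∀ v q q', M 0 v q q' = if q = p ∧ q' = p ∧ v = w then (1 : ℝ) else 0)
    (hM : ∀ t v1 q1 q1', M (t + 1) v1 q1 q1'
      = ∑ v, ∑ q, ∑ q', M t v q q' * A q v q1 v1 * A q' v q1' v1 / D v v1)
    (t : ℕ) : ∀ (v : β) (ξ : α → ℝ), 0 ≤ ∑ q, ∑ q', ξ q * ξ q' * M t v q q' := by
  induction t with
  | zero =>
    intro v ξ
    have h0 : ∑ q, ∑ q', ξ q * ξ q' * M 0 v q q'
        = ∑ q, ∑ q', ξ q * ξ q' * (if q = p ∧ q' = p ∧ v = w then (1 : ℝ) else 0) :=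
      Finset.sum_congr rfl (fun q _ => Finset.sum_congr rfl (fun q' _ => by rw [hM0]))
    rw [h0, quad0]
    by_cases hv : v = w
    · rw [if_pos hv]
      exact mul_self_nonneg _
    · rw [if_neg hv]
  | succ t ih =>
    intro v1 ξ
    rw [core_E1 A D M hM t v1 ξ]
    exact Finset.sum_nonneg (fun v _ => div_nonneg (ih v _) (hD v v1))

theorem core_cs (p : α) (w : β) (hA : ∀ q v q1 v1, 0 ≤ A q v q1 v1)
    (hAD : ∀ q v v1, ∑ q1, A q v q1 v1 = D v v1) (hD : ∀ v v1, 0 ≤ D v v1)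
    (hPnn : ∀ t v, 0 ≤ P t v)
    (hM0 : ∀ v q q', M 0 v q q' = if q = p ∧ q' = p ∧ v = w then (1 : ℝ) else 0)
    (hN0 : ∀ v q, N 0 v q = if q = p ∧ v = w then (1 : ℝ) else 0)
    (hP0 : ∀ v, P 0 v = if v = w then (1 : ℝ) else 0)
    (hM : ∀ t v1 q1 q1', M (t + 1) v1 q1 q1'
      = ∑ v, ∑ q, ∑ q', M t v q q' * A q v q1 v1 * A q' v q1' v1 / D v v1)
    (hN : ∀ t v1 q1, N (t + 1) v1 q1 = ∑ v, ∑ q, N t v q * A q v q1 v1)
    (hP : ∀ t v1, P (t + 1) v1 = ∑ v, P t v * D v v1)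
    (t : ℕ) : ∀ (v : β) (ξ : α → ℝ),
      (∑ q, ξ q * N t v q) ^ 2 ≤ P t v * ∑ q, ∑ q', ξ q * ξ q' * M t v q q' := by
  induction t with
  | zero =>
    intro v ξ
    have h0 : ∑ q, ∑ q', ξ q * ξ q' * M 0 v q q'
        = ∑ q, ∑ q', ξ q * ξ q' * (if q = p ∧ q' = p ∧ v = w then (1 : ℝ) else 0) :=
      Finset.sum_congr rfl (fun q _ => Finset.sum_congr rfl (fun q' _ => by rw [hM0]))
    have h1 : ∑ q, ξ q * N 0 v q = ∑ q, ξ q * (if q = p ∧ v = w then (1 : ℝ) else 0) :=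
      Finset.sum_congr rfl (fun q _ => by rw [hN0])
    rw [h0, h1, quad0, lin0, hP0]
    by_cases hv : v = w
    · rw [if_pos hv, if_pos hv, if_pos hv, one_mul, sq]
    · rw [if_neg hv, if_neg hv, if_neg hv, mul_zero]
      exact le_of_eq (by ring)
  | succ t ih =>
    intro v1 ξ
    obtain ⟨η, hη⟩ : ∃ η : β → α → ℝ, ∀ v q, η v q = ∑ q1, ξ q1 * A q v q1 v1 :=
      ⟨fun v q => ∑ q1, ξ q1 * A q v q1 v1, fun _ _ => rfl⟩
    have hE1 : ∑ q1, ∑ q1', ξ q1 * ξ q1' * M (t + 1) v1 q1 q1'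
        = ∑ v, (∑ q, ∑ q', η v q * η v q' * M t v q q') / D v v1 := by
      rw [core_E1 A D M hM t v1 ξ]
      refine Finset.sum_congr rfl (fun v _ => ?_)
      congr 1
      refine Finset.sum_congr rfl (fun q _ => Finset.sum_congr rfl (fun q' _ => ?_))
      rw [hη, hη]
    have hE2 : ∑ q1, ξ q1 * N (t + 1) v1 q1 = ∑ v, ∑ q, N t v q * η v q := by
      rw [core_E2 A N hN t v1 ξ]
      refine Finset.sum_congr rfl (fun v _ => Finset.sum_congr rfl (fun q _ => ?_))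
      rw [hη]
    rw [hE1, hE2, hP]
    refine weighted_cs univ (fun v => ∑ q, N t v q * η v q) (fun v => P t v * D v v1)
      (fun v => (∑ q, ∑ q', η v q * η v q' * M t v q q') / D v v1) ?_ ?_ ?_
    · intro v _
      exact mul_nonneg (hPnn t v) (hD v v1)
    · intro v _
      exact div_nonneg (core_psd A D M p w hD hM0 hM t v (η v)) (hD v v1)
    · intro v _
      have ihv := ih v (η v)
      have hX : ∑ q, N t v q * η v q = ∑ q, η v q * N t v q :=
        Finset.sum_congr rfl (fun q _ => mul_comm _ _)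
      show (∑ q, N t v q * η v q) ^ 2
        ≤ P t v * D v v1 * ((∑ q, ∑ q', η v q * η v q' * M t v q q') / D v v1)
      by_cases hD0 : D v v1 = 0
      · have hA0 : ∀ q q1, A q v q1 v1 = 0 := by
          intro q q1
          have hle : A q v q1 v1 ≤ ∑ q1, A q v q1 v1 :=
            Finset.single_le_sum (fun i _ => hA q v i v1) (Finset.mem_univ q1)
          rw [hAD, hD0] at hle
          exact le_antisymm hle (hA q v q1 v1)
        have hη0 : ∀ q, η v q = 0 := by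
          intro q
          rw [hη]
          refine Finset.sum_eq_zero (fun q1 _ => ?_)
          rw [hA0, mul_zero]
        have hX0 : ∑ q, N t v q * η v q = 0 :=
          Finset.sum_eq_zero (fun q _ => by rw [hη0, mul_zero])
        rw [hX0, hD0, mul_zero, zero_mul]
        exact le_of_eq (by ring)
      · rw [hX]
        calc (∑ q, η v q * N t v q) ^ 2
            ≤ P t v * ∑ q, ∑ q', η v q * η v q' * M t v q q' := ihv
          _ = P t v * D v v1 * ((∑ q, ∑ q', η v q * η v q' * M t v q q') / D v v1) := by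
              field_simp

theorem lsum_single (a : α) (n : α → ℝ) :
    ∑ x, (if x = a then (1 : ℝ) else 0) * n x = n a := by
  rw [Finset.sum_eq_single a]
  · rw [if_pos rfl, one_mul]
  · intro x _ hx
    rw [if_neg hx, zero_mul]
  · intro ha
    exact absurd (Finset.mem_univ a) ha

theorem core_diag (p : α) (w : β) (hA : ∀ q v q1 v1, 0 ≤ A q v q1 v1)
    (hAD : ∀ q v v1, ∑ q1, A q v q1 v1 = D v v1) (hD : ∀ v v1, 0 ≤ D v v1)
    (hPnn : ∀ t v, 0 ≤ P t v)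
    (hM0 : ∀ v q q', M 0 v q q' = if q = p ∧ q' = p ∧ v = w then (1 : ℝ) else 0)
    (hN0 : ∀ v q, N 0 v q = if q = p ∧ v = w then (1 : ℝ) else 0)
    (hP0 : ∀ v, P 0 v = if v = w then (1 : ℝ) else 0)
    (hM : ∀ t v1 q1 q1', M (t + 1) v1 q1 q1'
      = ∑ v, ∑ q, ∑ q', M t v q q' * A q v q1 v1 * A q' v q1' v1 / D v v1)
    (hN : ∀ t v1 q1, N (t + 1) v1 q1 = ∑ v, ∑ q, N t v q * A q v q1 v1)
    (hP : ∀ t v1, P (t + 1) v1 = ∑ v, P t v * D v v1)
    (t : ℕ) (v : β) (q : α) : (N t v q) ^ 2 ≤ P t v * M t v q q := by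
  have key := core_cs A D M N P p w hA hAD hD hPnn hM0 hN0 hP0 hM hN hP t v
    (fun x => if x = q then (1 : ℝ) else 0)
  have h1 : ∑ x, (if x = q then (1 : ℝ) else 0) * N t v x = N t v q := lsum_single q (N t v)
  have h2 : ∑ x, ∑ y, (if x = q then (1 : ℝ) else 0) * (if y = q then (1 : ℝ) else 0)
      * M t v x y = M t v q q := dsum_single q q (M t v)
  rw [h1, h2] at key
  exact key

theorem core_two (p : α) (w : β) (hD : ∀ v v1, 0 ≤ D v v1)
    (hM0 : ∀ v q q', M 0 v q q' = if q = p ∧ q' = p ∧ v = w then (1 : ℝ) else 0)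
    (hM : ∀ t v1 q1 q1', M (t + 1) v1 q1 q1'
      = ∑ v, ∑ q, ∑ q', M t v q q' * A q v q1 v1 * A q' v q1' v1 / D v v1)
    (t : ℕ) (v : β) (q q' : α) (hsym : M t v q' q = M t v q q') :
    2 * M t v q q' ≤ M t v q q + M t v q' q' := by
  have key := core_psd A D M p w hD hM0 hM t v
    (fun x => (if x = q then (1 : ℝ) else 0) - (if x = q' then (1 : ℝ) else 0))
  have hexp : ∑ x, ∑ y, ((if x = q then (1 : ℝ) else 0) - (if x = q' then (1 : ℝ) else 0))
      * ((if y = q then (1 : ℝ) else 0) - (if y = q' then (1 : ℝ) else 0)) * M t v x y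
      = M t v q q - M t v q q' - M t v q' q + M t v q' q' := by
    have hpt : ∀ x y, ((if x = q then (1 : ℝ) else 0) - (if x = q' then (1 : ℝ) else 0))
        * ((if y = q then (1 : ℝ) else 0) - (if y = q' then (1 : ℝ) else 0)) * M t v x y
        = (if x = q then (1 : ℝ) else 0) * (if y = q then (1 : ℝ) else 0) * M t v x y
          - (if x = q then (1 : ℝ) else 0) * (if y = q' then (1 : ℝ) else 0) * M t v x y
          - (if x = q' then (1 : ℝ) else 0) * (if y = q then (1 : ℝ) else 0) * M t v x y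
          + (if x = q' then (1 : ℝ) else 0) * (if y = q' then (1 : ℝ) else 0) * M t v x y := by
      intro x y
      ring
    simp_rw [hpt, Finset.sum_add_distrib, Finset.sum_sub_distrib]
    rw [dsum_single, dsum_single, dsum_single, dsum_single]
  rw [hexp] at key
  linarith

end core

section concrete

variable (h j : ℕ) [NeZero h]

theorem cons_cons_eq_iff (p q q' : ZMod (2 * h)) (w v : Fin j → ZMod (2 * h)) :
    (Fin.cons p (Fin.cons p w) : Fin (j + 2) → ZMod (2 * h)) = Fin.cons q (Fin.cons q' v)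
      ↔ q = p ∧ q' = p ∧ v = w := by
  rw [Fin.cons_inj, Fin.cons_inj]
  exact ⟨fun hc => ⟨hc.1.symm, hc.2.1.symm, hc.2.2.symm⟩,
    fun hc => ⟨hc.1.symm, hc.2.1.symm, hc.2.2.symm⟩⟩

theorem Qpow_zero_cons (p q q' : ZMod (2 * h)) (w v : Fin j → ZMod (2 * h)) :
    (Qmat h j ^ 0) (Fin.cons p (Fin.cons p w)) (Fin.cons q (Fin.cons q' v))
      = if q = p ∧ q' = p ∧ v = w then (1 : ℝ) else 0 := by
  rw [pow_zero, Matrix.one_apply]
  exact if_congr (cons_cons_eq_iff h j p q q' w v) rfl rfl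

theorem K1pow_zero_cons (p q : ZMod (2 * h)) (w v : Fin j → ZMod (2 * h)) :
    (Kmat h (j + 1) ^ 0) (Fin.cons p w) (Fin.cons q v)
      = if q = p ∧ v = w then (1 : ℝ) else 0 := by
  rw [pow_zero, Matrix.one_apply]
  refine if_congr ?_ rfl rfl
  rw [Fin.cons_inj]
  exact ⟨fun hc => ⟨hc.1.symm, hc.2.symm⟩, fun hc => ⟨hc.1.symm, hc.2.symm⟩⟩

theorem K0pow_zero (w v : Fin j → ZMod (2 * h)) :
    (Kmat h j ^ 0) w v = if v = w then (1 : ℝ) else 0 := by
  rw [pow_zero, Matrix.one_apply]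
  exact if_congr eq_comm rfl rfl

theorem Qpow_succ_cons (t : ℕ) (u0 : Fin (j + 2) → ZMod (2 * h)) (q1 q1' : ZMod (2 * h))
    (v1 : Fin j → ZMod (2 * h)) :
    (Qmat h j ^ (t + 1)) u0 (Fin.cons q1 (Fin.cons q1' v1))
      = ∑ v : Fin j → ZMod (2 * h), ∑ q : ZMod (2 * h), ∑ q' : ZMod (2 * h),
          (Qmat h j ^ t) u0 (Fin.cons q (Fin.cons q' v))
            * Kmat h (j + 1) (Fin.cons q v) (Fin.cons q1 v1)
            * Kmat h (j + 1) (Fin.cons q' v) (Fin.cons q1' v1) / Kmat h j v v1 := by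
  rw [pow_succ, Matrix.mul_apply, H23.sum_fin_succ_fun]
  have hq : ∀ q : ZMod (2 * h),
      ∑ y' : Fin (j + 1) → ZMod (2 * h), (Qmat h j ^ t) u0 (Fin.cons q y')
          * Qmat h j (Fin.cons q y') (Fin.cons q1 (Fin.cons q1' v1))
        = ∑ q' : ZMod (2 * h), ∑ v : Fin j → ZMod (2 * h),
          (Qmat h j ^ t) u0 (Fin.cons q (Fin.cons q' v))
            * Kmat h (j + 1) (Fin.cons q v) (Fin.cons q1 v1)
            * Kmat h (j + 1) (Fin.cons q' v) (Fin.cons q1' v1) / Kmat h j v v1 := by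
    intro q
    rw [H23.sum_fin_succ_fun]
    refine Finset.sum_congr rfl (fun q' _ => Finset.sum_congr rfl (fun v _ => ?_))
    rw [Qmat_cons]
    ring
  calc ∑ q : ZMod (2 * h), ∑ y' : Fin (j + 1) → ZMod (2 * h),
        (Qmat h j ^ t) u0 (Fin.cons q y')
          * Qmat h j (Fin.cons q y') (Fin.cons q1 (Fin.cons q1' v1))
      = ∑ q : ZMod (2 * h), ∑ q' : ZMod (2 * h), ∑ v : Fin j → ZMod (2 * h),
          (Qmat h j ^ t) u0 (Fin.cons q (Fin.cons q' v))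
            * Kmat h (j + 1) (Fin.cons q v) (Fin.cons q1 v1)
            * Kmat h (j + 1) (Fin.cons q' v) (Fin.cons q1' v1) / Kmat h j v v1 :=
        Finset.sum_congr rfl (fun q _ => hq q)
    _ = ∑ q : ZMod (2 * h), ∑ v : Fin j → ZMod (2 * h), ∑ q' : ZMod (2 * h),
          (Qmat h j ^ t) u0 (Fin.cons q (Fin.cons q' v))
            * Kmat h (j + 1) (Fin.cons q v) (Fin.cons q1 v1)
            * Kmat h (j + 1) (Fin.cons q' v) (Fin.cons q1' v1) / Kmat h j v v1 :=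
        Finset.sum_congr rfl (fun q _ => Finset.sum_comm)
    _ = _ := Finset.sum_comm

theorem K1pow_succ_cons (t : ℕ) (z0 : Fin (j + 1) → ZMod (2 * h)) (q1 : ZMod (2 * h))
    (v1 : Fin j → ZMod (2 * h)) :
    (Kmat h (j + 1) ^ (t + 1)) z0 (Fin.cons q1 v1)
      = ∑ v : Fin j → ZMod (2 * h), ∑ q : ZMod (2 * h),
          (Kmat h (j + 1) ^ t) z0 (Fin.cons q v)
            * Kmat h (j + 1) (Fin.cons q v) (Fin.cons q1 v1) := by
  rw [pow_succ, Matrix.mul_apply, H23.sum_fin_succ_fun]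
  exact Finset.sum_comm

theorem K0pow_succ (t : ℕ) (w v1 : Fin j → ZMod (2 * h)) :
    (Kmat h j ^ (t + 1)) w v1 = ∑ v : Fin j → ZMod (2 * h), (Kmat h j ^ t) w v * Kmat h j v v1 := by
  rw [pow_succ, Matrix.mul_apply]

theorem K1_sum_target (q : ZMod (2 * h)) (v v1 : Fin j → ZMod (2 * h)) :
    ∑ q1 : ZMod (2 * h), Kmat h (j + 1) (Fin.cons q v) (Fin.cons q1 v1) = Kmat h j v v1 := by
  rw [H43.step_tail, Fin.tail_cons]

end concrete

/-- Pool job CV4, first statement. -/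
theorem Qpow_psd (h j : ℕ) [NeZero h] (t : ℕ) (p : ZMod (2 * h)) (w v : Fin j → ZMod (2 * h))
    (ξ : ZMod (2 * h) → ℝ) :
    0 ≤ ∑ q : ZMod (2 * h), ∑ q' : ZMod (2 * h), ξ q * ξ q'
      * (Qmat h j ^ t) (Fin.cons p (Fin.cons p w)) (Fin.cons q (Fin.cons q' v)) :=
  core_psd (fun q v q1 v1 => Kmat h (j + 1) (Fin.cons q v) (Fin.cons q1 v1))
    (fun v v1 => Kmat h j v v1)
    (fun t v q q' => (Qmat h j ^ t) (Fin.cons p (Fin.cons p w)) (Fin.cons q (Fin.cons q' v)))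
    p w (fun v v1 => H95.stepProb_nonneg h j v v1)
    (fun v q q' => Qpow_zero_cons h j p q q' w v)
    (fun t v1 q1 q1' => Qpow_succ_cons h j t _ q1 q1' v1) t v ξ

/-- Pool job CV4, second statement. -/
theorem cs_prop (h j : ℕ) [NeZero h] (t : ℕ) (p : ZMod (2 * h)) (w v : Fin j → ZMod (2 * h))
    (ξ : ZMod (2 * h) → ℝ) :
    (∑ q : ZMod (2 * h), ξ q * (Kmat h (j + 1) ^ t) (Fin.cons p w) (Fin.cons q v)) ^ 2
      ≤ (Kmat h j ^ t) w v * ∑ q : ZMod (2 * h), ∑ q' : ZMod (2 * h), ξ q * ξ q'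
        * (Qmat h j ^ t) (Fin.cons p (Fin.cons p w)) (Fin.cons q (Fin.cons q' v)) :=
  core_cs (fun q v q1 v1 => Kmat h (j + 1) (Fin.cons q v) (Fin.cons q1 v1))
    (fun v v1 => Kmat h j v v1)
    (fun t v q q' => (Qmat h j ^ t) (Fin.cons p (Fin.cons p w)) (Fin.cons q (Fin.cons q' v)))
    (fun t v q => (Kmat h (j + 1) ^ t) (Fin.cons p w) (Fin.cons q v))
    (fun t v => (Kmat h j ^ t) w v)
    p w (fun _ _ _ _ => H95.stepProb_nonneg h (j + 1) _ _)
    (fun q v v1 => K1_sum_target h j q v v1)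
    (fun v v1 => H95.stepProb_nonneg h j v v1)
    (fun t v => H95.Kmat_pow_nonneg h j t w v)
    (fun v q q' => Qpow_zero_cons h j p q q' w v)
    (fun v q => K1pow_zero_cons h j p q w v)
    (fun v => K0pow_zero h j w v)
    (fun t v1 q1 q1' => Qpow_succ_cons h j t _ q1 q1' v1)
    (fun t v1 q1 => K1pow_succ_cons h j t _ q1 v1)
    (fun t v1 => K0pow_succ h j t w v1) t v ξ

/-- Pool job CV4, third statement. -/
theorem diag_cs (h j : ℕ) [NeZero h] (t : ℕ) (p q : ZMod (2 * h)) (w v : Fin j → ZMod (2 * h)) :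
    ((Kmat h (j + 1) ^ t) (Fin.cons p w) (Fin.cons q v)) ^ 2
      ≤ (Kmat h j ^ t) w v
        * (Qmat h j ^ t) (Fin.cons p (Fin.cons p w)) (Fin.cons q (Fin.cons q v)) :=
  core_diag (fun q v q1 v1 => Kmat h (j + 1) (Fin.cons q v) (Fin.cons q1 v1))
    (fun v v1 => Kmat h j v v1)
    (fun t v q q' => (Qmat h j ^ t) (Fin.cons p (Fin.cons p w)) (Fin.cons q (Fin.cons q' v)))
    (fun t v q => (Kmat h (j + 1) ^ t) (Fin.cons p w) (Fin.cons q v))
    (fun t v => (Kmat h j ^ t) w v)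
    p w (fun _ _ _ _ => H95.stepProb_nonneg h (j + 1) _ _)
    (fun q v v1 => K1_sum_target h j q v v1)
    (fun v v1 => H95.stepProb_nonneg h j v v1)
    (fun t v => H95.Kmat_pow_nonneg h j t w v)
    (fun v q q' => Qpow_zero_cons h j p q q' w v)
    (fun v q => K1pow_zero_cons h j p q w v)
    (fun v => K0pow_zero h j w v)
    (fun t v1 q1 q1' => Qpow_succ_cons h j t _ q1 q1' v1)
    (fun t v1 q1 => K1pow_succ_cons h j t _ q1 v1)
    (fun t v1 => K0pow_succ h j t w v1) t v q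

/-- Pool job CV4, fourth statement, with the symmetry of job CV3 as a hypothesis. -/
theorem Qpow_two_le_of (h j : ℕ) [NeZero h]
    (hswap : ∀ (t : ℕ) (p p' q q' : ZMod (2 * h)) (w v : Fin j → ZMod (2 * h)),
      (Qmat h j ^ t) (Fin.cons p (Fin.cons p' w)) (Fin.cons q (Fin.cons q' v))
        = (Qmat h j ^ t) (Fin.cons p' (Fin.cons p w)) (Fin.cons q' (Fin.cons q v)))
    (t : ℕ) (p q q' : ZMod (2 * h)) (w v : Fin j → ZMod (2 * h)) :
    2 * (Qmat h j ^ t) (Fin.cons p (Fin.cons p w)) (Fin.cons q (Fin.cons q' v))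
      ≤ (Qmat h j ^ t) (Fin.cons p (Fin.cons p w)) (Fin.cons q (Fin.cons q v))
        + (Qmat h j ^ t) (Fin.cons p (Fin.cons p w)) (Fin.cons q' (Fin.cons q' v)) :=
  core_two (fun q v q1 v1 => Kmat h (j + 1) (Fin.cons q v) (Fin.cons q1 v1))
    (fun v v1 => Kmat h j v v1)
    (fun t v q q' => (Qmat h j ^ t) (Fin.cons p (Fin.cons p w)) (Fin.cons q (Fin.cons q' v)))
    p w (fun v v1 => H95.stepProb_nonneg h j v v1)
    (fun v q q' => Qpow_zero_cons h j p q q' w v)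
    (fun t v1 q1 q1' => Qpow_succ_cons h j t _ q1 q1' v1) t v q q'
    (hswap t p p q' q w v)


/-- Pool job CV4, fourth statement (with the symmetry `H71CV.Qpow_swap` of job CV3). -/
theorem Qpow_two_le (h j : ℕ) [NeZero h] (t : ℕ) (p q q' : ZMod (2 * h))
    (w v : Fin j → ZMod (2 * h)) :
    2 * (Qmat h j ^ t) (Fin.cons p (Fin.cons p w)) (Fin.cons q (Fin.cons q' v))
      ≤ (Qmat h j ^ t) (Fin.cons p (Fin.cons p w)) (Fin.cons q (Fin.cons q v))
        + (Qmat h j ^ t) (Fin.cons p (Fin.cons p w)) (Fin.cons q' (Fin.cons q' v)) :=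
  Qpow_two_le_of h j (fun t p p' q q' w v => H71CV.Qpow_swap h j t p p' q q' w v) t p q q' w v

end Vale.Agent.Lib.P162.H28CV
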